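import Vale.Agent.P195.AExt.GlueI
import Vale.Agent.P195.HomY.Copy

/-!
# P195: cocycles with values in `Y m` on the glued resolution

Only operator parts act, so `Psi` disappears; the statements on one copy make every cocycle in
positive degree a coboundary.
-/

noncomputable section

namespace Vale.Agent.P195.AExt

open LinCat Res HomY

variable {N N' : ℕ}

/-- The value at `j` of the transpose of a matrix. -/
theorem app_eq_tr {ι κ : Type} [Fintype κ] {g : κ → V} {g' : ι → V} (m : ℤ)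
    (M : ∀ j, (catA0.free g).X (g' j)) (y : ∀ h, Y m (emb (g h))) (j : ι) :
    (freeHom g (repY0 m) y).app _ (M j) =
      tr m (fun j h => ((M j h : H (emb (g h)) (emb (g' j))).1)) y j :=
  (freeHom_app (g := g) (repY0 m) y (M j)).trans rfl

theorem tr_sub {ι κ : Type} [Fintype κ] {gι : ι → V} {gκ : κ → V} (m : ℤ)
    (M : ∀ g h, B (emb (gκ h)) (emb (gι g))) (y y' : ∀ h, Y m (emb (gκ h))) :
    tr m M (y - y') = tr m M y - tr m M y' := by
  funext g
  simp [tr, Finset.sum_sub_distrib]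

theorem tr_add {ι κ : Type} [Fintype κ] {gι : ι → V} {gκ : κ → V} (m : ℤ)
    (M : ∀ g h, B (emb (gκ h)) (emb (gι g))) (y y' : ∀ h, Y m (emb (gκ h))) :
    tr m M (y + y') = tr m M y + tr m M y' := by
  funext g
  simp [tr, Finset.sum_add_distrib]

theorem tr_zero {ι κ : Type} [Fintype κ] {gι : ι → V} {gκ : κ → V} (m : ℤ)
    (M : ∀ g h, B (emb (gκ h)) (emb (gι g))) : tr m M (0 : ∀ h, Y m (emb (gκ h))) = 0 := by
  funext g
  simp [tr]

theorem tr_eq_zero {ι κ : Type} [Fintype κ] {gι : ι → V} {gκ : κ → V} (m : ℤ)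
    (M : ∀ g h, B (emb (gκ h)) (emb (gι g))) (hM : ∀ g h, M g h = 0)
    (y : ∀ h, Y m (emb (gκ h))) : tr m M y = 0 := by
  funext g
  simp [tr, hM]

/-- Every cocycle at `g'` of the transposes of `M` and `M'` with values in `Y m` is a coboundary. -/
def Cob (m : ℤ) {ι ι' ι'' : Type} [Fintype ι] [Fintype ι'] {g : ι → V} {g' : ι' → V}
    {g'' : ι'' → V} (M : ∀ j, (catA0.free g).X (g' j)) (M' : ∀ j, (catA0.free g').X (g'' j)) :
    Prop :=
  ∀ y : ∀ j, Y m (emb (g' j)), (∀ j, (freeHom g' (repY0 m) y).app _ (M' j) = 0) →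
    ∃ x : ∀ j, Y m (emb (g j)), ∀ j, (freeHom g (repY0 m) x).app _ (M j) = y j

variable {m : ℤ} (s : ℕ)

theorem psi_fst0 (g : G0 N) (h : G1 N) : (Psi0 N g h).1 = 0 := rfl

theorem psi_fst1 (g : G1 N) (h : G2 N) : (Psi1 N g h).1 = 0 := rfl

theorem psi_fst2 (g : G2 N) (h : G3 N) : (Psi2 N g h).1 = 0 := rfl

/-- The odd step on values. -/
theorem tr_mOdd (y : ∀ i, Y m (emb (Sum.elim (vg2 (N := N)) vg0 i))) :
    (∀ g, (freeHom (Sum.elim vg2 vg0) (repY0 m) y).app _ (mOdd N s (.inl g)) =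
      tr m (fun g h => (d3 N s g h).1) (fun h => y (.inl h)) g +
        tr m (fun g h => (th N s g h).1) (fun h => y (.inr h)) g) ∧
    (∀ g, (freeHom (Sum.elim vg2 vg0) (repY0 m) y).app _ (mOdd N s (.inr g)) =
      tr m (fun g h => (d1 N (s + 1) g h).1) (fun h => y (.inr h)) g) :=
  ⟨fun g => (app_sum (C := catA0) (repY0 m) y (mOdd N s (.inl g))).trans
      (congrArg₂ (· + ·) (app_eq_tr m (d3 N s) _ g) (app_eq_tr m (th N s) _ g)),
    fun g => by
      refine (app_sum (C := catA0) (repY0 m) y (mOdd N s (.inr g))).trans ?_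
      refine (congrArg₂ (α := Y m (emb (vg1 g))) (β := Y m (emb (vg1 g))) (fun a b => a + b)
        ((app_eq_tr m (Psi1 N) (fun h : G2 N => (y (.inl h) : Y m (emb (vg2 h)))) g).trans
          (congrFun (tr_eq_zero m _ psi_fst1 _) g))
        (app_eq_tr m (d1 N (s + 1)) (fun h : G0 N => (y (.inr h) : Y m (emb (vg0 h)))) g)).trans ?_
      exact zero_add _⟩

/-- The even step on values. -/
theorem tr_mEven (y : ∀ i, Y m (emb (Sum.elim (vg3 (N := N)) vg1 i))) :
    (∀ g, (freeHom (Sum.elim vg3 vg1) (repY0 m) y).app _ (mEven N s (.inl g)) =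
      tr m (fun g h => (d2 N (s + 1) g h).1) (fun h => y (.inr h)) g) ∧
    (∀ g, (freeHom (Sum.elim vg3 vg1) (repY0 m) y).app _ (mEven N s (.inr g)) = 0) :=
  ⟨fun g => (app_sum (C := catA0) (repY0 m) y (mEven N s (.inl g))).trans
      ((congrArg₂ (· + ·) ((app_eq_tr m (Psi2 N) _ g).trans
        (congrFun (tr_eq_zero m _ psi_fst2 _) g)) (app_eq_tr m (d2 N (s + 1)) _ g)).trans
          (zero_add _)),
    fun g => by
      refine (app_sum (C := catA0) (repY0 m) y (mEven N s (.inr g))).trans ?_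
      refine (congrArg₂ (α := Y m (emb (vg0 g))) (β := Y m (emb (vg0 g))) (fun a b => a + b)
        (map_zero _)
        ((app_eq_tr m (Psi0 N) (fun h : G1 N => (y (.inr h) : Y m (emb (vg1 h)))) g).trans
          (congrFun (tr_eq_zero m _ psi_fst0 _) g))).trans ?_
      exact zero_add _⟩

/-- The step from degree one on values. -/
theorem tr_mFirst (y : ∀ i : G1 N, Y m (emb (vg1 i))) :
    (∀ g, (freeHom vg1 (repY0 m) y).app _ (mFirst N (.inl g)) =
      tr m (fun g h => (d2 N 0 g h).1) y g) ∧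
    (∀ g, (freeHom vg1 (repY0 m) y).app _ (mFirst N (.inr g)) = 0) :=
  ⟨fun g => app_eq_tr m (d2 N 0) y g, fun g => (app_eq_tr m (Psi0 N) y g).trans
    (congrFun (tr_eq_zero m _ psi_fst0 y) g)⟩

variable (hN : 3 ≤ N) (hN' : 1 ≤ N') (hle : N' ≤ N)
include hN hN' hle

/-- A cocycle in degree `2s+2` is zero on `G0` and a coboundary on `G2`. -/
theorem cocycle_evenI (y : ∀ i, Y (nn N') (emb (Sum.elim (vg2 (N := N)) vg0 i)))
    (hy : ∀ j, (freeHom (Sum.elim vg2 vg0) (repY0 (nn N')) y).app _ (mOdd N s j) = 0) :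
    (∀ h, y (.inr h) = 0) ∧ ∃ x : ∀ h : G1 N, Y (nn N') (emb (vg1 h)),
      tr (nn N') (fun g h => (d2 N s g h).1) x = fun h => y (.inl h) := by
  let y2 : ∀ h : G2 N, Y (nn N') (emb (vg2 h)) := fun h => y (.inl h)
  let y0 : ∀ h : G0 N, Y (nn N') (emb (vg0 h)) := fun h => y (.inr h)
  have hd1 : tr (nn N') (fun g h => (d1 N (s + 1) g h).1) y0 = 0 :=
    funext fun g => ((tr_mOdd s y).2 g).symm.trans (hy (.inr g))
  have h3 : tr (nn N') (fun g h => (d3 N s g h).1) y2 +
      tr (nn N') (fun g h => (th N s g h).1) y0 = 0 :=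
    funext fun g => ((tr_mOdd s y).1 g).symm.trans (hy (.inl g))
  have h0 : y0 = 0 := hom_zero hN hN' hle s y0 hd1
    ⟨0 - y2, (eq_neg_of_add_eq_zero_right h3).trans
      ((zero_sub _).symm.trans ((congrArg (· - _) (tr_zero _ _).symm).trans (tr_sub _ _ 0 y2).symm))⟩
  refine ⟨congrFun h0, hom_two hN hle s y2 ?_⟩
  exact (add_zero _).symm.trans
    ((congrArg (_ + ·) ((congrArg _ h0).trans (tr_zero _ _)).symm).trans h3)

/-- A cocycle in degree `2s+3` is a coboundary. -/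
theorem cocycle_oddI (y : ∀ i, Y (nn N') (emb (Sum.elim (vg3 (N := N)) vg1 i)))
    (hy : ∀ j, (freeHom (Sum.elim vg3 vg1) (repY0 (nn N')) y).app _ (mEven N s j) = 0) :
    ∃ x, ∀ j, (freeHom (Sum.elim vg2 vg0) (repY0 (nn N')) x).app _ (mOdd N s j) = y j := by
  let y3 : ∀ h : G3 N, Y (nn N') (emb (vg3 h)) := fun h => y (.inl h)
  let y1 : ∀ h : G1 N, Y (nn N') (emb (vg1 h)) := fun h => y (.inr h)
  obtain ⟨z₀, hz₀⟩ := hom_one hN hN' hle (s + 1) y1
    (funext fun g => ((tr_mEven s y).1 g).symm.trans (hy (.inl g)))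
  obtain ⟨b, z, hz, hbz⟩ := hom_three hN hle s
    (y3 - tr (nn N') (fun g h => (th N s g h).1) z₀)
  refine ⟨fun j => match j with | .inl h => b h | .inr h => (z₀ + z) h, ?_⟩
  rintro (g | g)
  · refine ((tr_mOdd s _).1 g).trans ?_
    show tr (nn N') (fun g h => (d3 N s g h).1) b g +
      tr (nn N') (fun g h => (th N s g h).1) (z₀ + z) g = y3 g
    have e : y3 g - tr (nn N') (fun g h => (th N s g h).1) z₀ g =
        tr (nn N') (fun g h => (d3 N s g h).1) b g +
          tr (nn N') (fun g h => (th N s g h).1) z g := congrFun hbz g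
    refine (congrArg (_ + ·) (congrFun (tr_add _ _ z₀ z) g)).trans ?_
    rw [Pi.add_apply, sub_eq_iff_eq_add.1 e]
    abel
  · refine ((tr_mOdd s _).2 g).trans ?_
    show tr (nn N') (fun g h => (d1 N (s + 1) g h).1) (z₀ + z) g = y1 g
    refine (congrFun (tr_add _ _ z₀ z) g).trans ?_
    rw [Pi.add_apply, congrFun hz g, Pi.zero_apply, add_zero, congrFun hz₀ g]

theorem cob_oddI : Cob (nn N') (mOdd N s) (mEven N s) := fun y hy =>
  cocycle_oddI s hN hN' hle y hy

theorem cob_evenI : Cob (nn N') (mEven N s) (mOdd N (s + 1)) := fun y hy => by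
  obtain ⟨h0, x, hx⟩ := cocycle_evenI (s + 1) hN hN' hle y hy
  refine ⟨fun j => match j with | .inl _ => 0 | .inr h => x h, ?_⟩
  rintro (g | g)
  · exact ((tr_mEven s _).1 g).trans (congrFun hx g)
  · exact ((tr_mEven s _).2 g).trans (h0 g).symm

theorem cob_zero : Cob (nn N') (d1 N 0) (mFirst N) := fun y hy => by
  obtain ⟨x, hx⟩ := hom_one hN hN' hle 0 y
    (funext fun g => ((tr_mFirst y).1 g).symm.trans (hy (.inl g)))
  exact ⟨x, fun g => (app_eq_tr _ (d1 N 0) x g).trans (congrFun hx g)⟩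

theorem cob_one : Cob (nn N') (mFirst N) (mOdd N 0) := fun y hy => by
  obtain ⟨h0, x, hx⟩ := cocycle_evenI 0 hN hN' hle y hy
  refine ⟨x, ?_⟩
  rintro (g | g)
  · exact ((tr_mFirst x).1 g).trans (congrFun hx g)
  · exact ((tr_mFirst x).2 g).trans (h0 g).symm

theorem cob_tailI : ∀ n s, Cob (nn N') (mTail N s n) (mTail N s (n + 1))
  | 0, s => cob_oddI s hN hN' hle
  | 1, s => cob_evenI s hN hN' hle
  | n + 2, s => cob_tailI n (s + 1)

/-- Cocycles in positive degree are coboundaries. -/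
theorem cocycle_glued : ∀ l, Cob (nn N') (mI N l) (mI N (l + 1))
  | 0 => cob_zero hN hN' hle
  | 1 => cob_one hN hN' hle
  | n + 2 => cob_tailI hN hN' hle n 0

end Vale.Agent.P195.AExt
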