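import Vale.Agent.P195.AExt.Trans
import Vale.Agent.P195.AExt.Cochain
import Vale.Agent.P195.ResSquares
import Vale.Agent.P195.ResX.OpsExact
import Vale.Agent.P195.KColBind
import Vale.Agent.P195.KNat

/-!
# P195: the facts for the resolution of `Y (nn N)`

The glued data at a vertex (`glueAt` for the resolution, `kdual` for the transposed twisted rows)
in the indices `GI`: together they are `Facts (nn N) (mm N)`.
-/

noncomputable section

namespace Vale.Agent.P195.AExt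

open LinCat Res

instance Y_emb_reflexive (n : ℤ) (u : V) : Module.IsReflexive ℚ (Y n (emb u)) :=
  have := Y_finite n (emb u)
  Module.IsReflexive.of_finite_of_free ℚ _

section Raw

variable {P0 P1 P2 P3 Y : Type} [AddCommGroup P0] [Module ℚ P0] [AddCommGroup P1] [Module ℚ P1]
  [AddCommGroup P2] [Module ℚ P2] [AddCommGroup P3] [Module ℚ P3] [AddCommGroup Y] [Module ℚ Y]

/-- One copy of glued data. -/
def ofGlue (G : GlueData ℚ P0 P1 P2 P3 Y) : Copy ℚ P0 P1 P2 P3 :=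
  ⟨G.d1, G.d2, G.d3, G.Ψ0, G.Ψ1, G.Ψ2, G.θ⟩

/-- One copy of transposed glued data. -/
def ofCoGlue (G : CoGlueData ℚ P0 P1 P2 P3 Y) : Copy ℚ P0 P1 P2 P3 :=
  ⟨G.d1, G.d2, G.d3, G.Ψ0, G.Ψ1, G.Ψ2, G.θ⟩

theorem ofGlue_tail (G : GlueData ℚ P0 P1 P2 P3 Y) :
    ∀ n s, G.tail s n = (ofGlue G).tail s n
  | 0, _ => rfl
  | 1, _ => rfl
  | n + 2, s => ofGlue_tail G n (s + 1)

theorem ofCoGlue_tail (G : CoGlueData ℚ P0 P1 P2 P3 Y) :
    ∀ n s, G.tail s n = (ofCoGlue G).tail s n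
  | 0, _ => rfl
  | 1, _ => rfl
  | n + 2, s => ofCoGlue_tail G n (s + 1)

theorem ofGlue_D (G : GlueData ℚ P0 P1 P2 P3 Y) : ∀ l, G.D l = (ofGlue G).D l
  | 0 => rfl
  | 1 => rfl
  | n + 2 => ofGlue_tail G n 0

end Raw

variable {N : ℕ} (hN : 4 ≤ N)
include hN

theorem colAt (u : V) : ColExactAt N (sdown u) := by
  have := u.1.isLt
  have := u.2.isLt
  exact Res.colExactAt hN (by dsimp only; omega) (by dsimp only; omega)
    (by dsimp only; omega) (by dsimp only; omega)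

theorem colAt' (u : V) : ColExactAt N (sdown' u) := by
  have := u.1.isLt
  have := u.2.isLt
  exact Res.colExactAt hN (by dsimp only; omega) (by dsimp only; omega)
    (by dsimp only; omega) (by dsimp only; omega)

/-- The resolution at `u`. -/
def rGlue (u : V) : GlueData ℚ (R0 N u) (R1 N u) (R2 N u) (R3 N u) (Y (nn N) (emb u)) :=
  glueAt (by omega) (Res.squares (by omega)) (Res.opsExact hN) u

/-- The transposed twisted rows at `u`. -/
def kGlue (u : V) :
    CoGlueData ℚ (D0K N u) (D1K N u) (D2K N u) (D3K N u) (Module.Dual ℚ (KE N u)) :=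
  kdual (by omega) (colAt hN u) (colAt' hN u)

theorem ofGlue_rGlue (u : V) : ofGlue (rGlue hN u) = copyR N u := by
  have h2 : 2 ≤ N := by omega
  simp only [ofGlue, copyR, rGlue]
  congr 1 <;> refine funext fun k => LinearMap.ext fun x => ?_
  · exact glueAt_d₁ h2 _ _ u k x
  · exact glueAt_d₂ h2 _ _ u k x
  · exact glueAt_d₃ h2 _ _ u k x
  · exact glueAt_Psi₀ h2 _ _ u k x
  · exact glueAt_Psi₁ h2 _ _ u k x
  · exact glueAt_Psi₂ h2 _ _ u k x
  · exact glueAt_th h2 _ _ u k x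

theorem ofCoGlue_kGlue (u : V) : ofCoGlue (kGlue hN u) = copyK N u := by
  simp only [ofCoGlue, copyK, kGlue]
  congr 1 <;> funext k
  · exact kdual_Ψ0 _ _ _ k
  · exact kdual_Ψ1 _ _ _ k
  · exact kdual_Ψ2 _ _ _ k

/-! ### The resolution -/

theorem exact_mI (l : ℕ) (u : V) :
    Function.Exact (fD (mI N (l + 1)) u) (fD (mI N l) u) := by
  refine exact_of_equiv (eRI N u (l + 1 + 1)) (eRI N u (l + 1)) (eRI N u l) (eRI_D N u (l + 1))
    (eRI_D N u l) ?_
  rw [← ofGlue_rGlue hN u, ← ofGlue_D, ← ofGlue_D]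
  exact (rGlue hN u).projSeq.exact l

theorem exact₀_mI (u : V) :
    Function.Exact (fD (mI N 0) u) ((freeHom (gI N 0) (repY0 (nn N)) (eps N)).app u) := by
  intro x
  have h := (rGlue hN u).exact_ε x
  rw [show (rGlue hN u).ε x = (freeHom (gI N 0) (repY0 (nn N)) (eps N)).app u x from
    glueAt_eps (by omega : 2 ≤ N) _ _ u x] at h
  refine h.trans (Set.ext_iff.1 (congrArg Set.range (funext fun y => ?_)) x)
  exact glueAt_d₁ (by omega : 2 ≤ N) _ _ u 0 y

theorem surj_eps (u : V) :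
    Function.Surjective ((freeHom (gI N 0) (repY0 (nn N)) (eps N)).app u) := fun y => by
  obtain ⟨x, hx⟩ := (rGlue hN u).ε_surj y
  exact ⟨x, (glueAt_eps (by omega : 2 ≤ N) _ _ u x).symm.trans hx⟩

/-! ### The transposed twisted rows -/

omit hN in
/-- The class of a functional in degree two. -/
def zI (hN : 4 ≤ N) (u : V) :
    Module.Dual ℚ (∀ i, KS u (gI N 2 i)) →ₗ[ℚ] Y (mm N) (emb u) :=
  (Module.evalEquiv ℚ (Y (mm N) (emb u))).symm.toLinearMap.comp
    ((kGlue hN u).ε.comp ((LinearMap.fst ℚ _ _).comp (eKI₂ N u).toLinearMap))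

theorem apply_zI (u : V) (φ : KD (gI N 2) u) (η : KE N u) :
    η (zI hN u φ) = (eKI N u 2 φ).1 (kap N u (colAt hN u) η) := by
  show η ((Module.evalEquiv ℚ (Y (mm N) (emb u))).symm ((kGlue hN u).ε (eKI N u 2 φ).1)) = _
  rw [Module.apply_evalEquiv_symm_apply]
  rfl

theorem zI_eq_zero_iff (u : V) (φ : KD (gI N 2) u) :
    zI hN u φ = 0 ↔ (kGlue hN u).ε (eKI N u 2 φ).1 = 0 :=
  (Module.evalEquiv ℚ (Y (mm N) (emb u))).symm.map_eq_zero_iff

theorem cycle_mI (u : V) (φ : KD (gI N 2) u) :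
    kD (mI N 1) u φ = 0 ↔ (kGlue hN u).first (eKI N u 2 φ) = 0 := by
  rw [← (eKI N u 1).map_eq_zero_iff, eKI_D, ← ofCoGlue_kGlue hN u]
  rfl

theorem kD_surj (u : V) : Function.Surjective (kD (mI N 0) u) := fun φ => by
  obtain ⟨x, hx⟩ := (kGlue hN u).surj 0 φ
  exact ⟨x, hx⟩

theorem kD_exact₁ (u : V) : Function.Exact (kD (mI N 1) u) (kD (mI N 0) u) := by
  refine exact_of_equiv (eKI N u 2) (eKI N u 1) (eKI N u 0) (eKI_D N u 1) (eKI_D N u 0) ?_
  rw [← ofCoGlue_kGlue hN u]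
  exact (kGlue hN u).exact_first

theorem kD_zero (u : V) (φ : KD (gI N 3) u) : kD (mI N 1) u (kD (mI N 2) u φ) = 0 := by
  rw [cycle_mI hN, eKI_D, ← ofCoGlue_kGlue hN u]
  exact (kGlue hN u).first_odd _

theorem kD_exact (l : ℕ) (u : V) :
    Function.Exact (kD (mI N (l + 2 + 1)) u) (kD (mI N (l + 2)) u) := by
  refine exact_of_equiv (eKI N u (l + 2 + 1 + 1)) (eKI N u (l + 2 + 1)) (eKI N u (l + 2))
    (eKI_D N u (l + 2 + 1)) (eKI_D N u (l + 2)) ?_
  rw [← ofCoGlue_kGlue hN u]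
  show Function.Exact ((ofCoGlue (kGlue hN u)).tail 0 (l + 1)) ((ofCoGlue (kGlue hN u)).tail 0 l)
  rw [← ofCoGlue_tail, ← ofCoGlue_tail]
  exact (kGlue hN u).exact_tail l 0

theorem zI_cycle (u : V) (y : Y (mm N) (emb u)) :
    ∃ φ, kD (mI N 1) u φ = 0 ∧ zI hN u φ = y := by
  obtain ⟨x, hx, hxy⟩ := (kGlue hN u).cycle_surj (Module.evalEquiv ℚ _ y)
  refine ⟨(eKI N u 2).symm x, ?_, ?_⟩
  · exact (cycle_mI hN u _).2
      ((congrArg (kGlue hN u).first ((eKI N u 2).apply_symm_apply x)).trans hx)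
  · refine ((Module.evalEquiv ℚ (Y (mm N) (emb u))).symm_apply_eq).2 ?_
    refine Eq.trans ?_ hxy
    exact congrArg (fun p => (kGlue hN u).ε p.1) ((eKI N u 2).apply_symm_apply x)

theorem zI_ker (u : V) (φ : KD (gI N 2) u) (hφ : kD (mI N 1) u φ = 0) :
    zI hN u φ = 0 ↔ φ ∈ LinearMap.range (kD (mI N 2) u) := by
  refine (zI_eq_zero_iff hN u φ).trans (((kGlue hN u).cycle_iff _ ((cycle_mI hN u φ).1 hφ)).trans ?_)
  have e : ∀ x, eKI N u 2 (kD (mI N 2) u x) = (kGlue hN u).odd 0 (eKI N u 3 x) := fun x => by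
    rw [eKI_D, ← ofCoGlue_kGlue hN u]
    rfl
  constructor
  · rintro ⟨x, hx⟩
    refine ⟨(eKI N u 3).symm x, (eKI N u 2).injective ?_⟩
    exact (e _).trans ((congrArg ((kGlue hN u).odd 0) ((eKI N u 3).apply_symm_apply x)).trans hx)
  · rintro ⟨x, rfl⟩
    exact ⟨eKI N u 3 x, (e x).symm⟩

omit hN in
/-- Composition with an arrow keeps a vector supported on the first block there. -/
theorem eP2_compf {u w : V} (f : H (emb u) (emb w)) (y : ∀ i : G2 N, KS w (vg2 i)) :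
    (fun j => hcomp ((eP2 (vg2 (N := N)) (vg0 (N := N)) w).symm (y, 0) j) f) =
      (eP2 (vg2 (N := N)) (vg0 (N := N)) u).symm ((fun i => hcomp (y i) f), 0) := by
  funext j
  rcases j with i | i
  · exact (congrArg (fun g => hcomp g f) (eP2_symm_inl (y, 0) i)).trans
      (eP2_symm_inl ((fun i => hcomp (y i) f), (0 : ∀ i : G0 N, KS u (vg0 i))) i).symm
  · refine (congrArg (fun g => hcomp g f) (eP2_symm_inr (y, 0) i)).trans ?_
    refine Eq.trans ?_ (eP2_symm_inr ((fun i => hcomp (y i) f), (0 : ∀ i : G0 N, KS u (vg0 i))) i).symm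
    exact (congrArg (fun g => g f) (map_zero (hcomp (u := emb u) (v := emb w) (x := ph (emb (vg0 i)))))).trans rfl

/-- A cycle kills the coboundaries of the bimodule part. -/
theorem cycle_kinr (u : V) (p : D2K N u × D0K N u) (hp : (kGlue hN u).first p = 0)
    (a : KWt u (vg1 (N := N))) :
    p.1 (kmap u (vi := vg2) (vk := vg1) (d2 N 0) (kinr vg1 u a)) = 0 := by
  have h : ((copyK N u).first p) (kinr vg1 u a) = 0 := by
    rw [← ofCoGlue_kGlue hN u]
    exact LinearMap.congr_fun hp _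
  have e : p.2 (kmap u (vi := vg0) (vk := vg1) (Psi0 N) (kinr vg1 u a)) = 0 := by
    refine (congrArg p.2 ((kmap_of_fst_zero (u := u) (vi := vg0) (vk := vg1) (Psi0 N)
      (fun _ _ => rfl) (kinr vg1 u a)).trans ?_)).trans (map_zero _)
    refine (congrArg (fun y => kinr vg0 u (kmapS u (vi := vg0) (vk := vg1) (Psi0 N) y))
      (kinr_kfst_exact.apply_apply_eq_zero a)).trans ?_
    simp only [map_zero]
  exact ((add_zero _).symm.trans (congrArg (_ + ·) e.symm)).trans h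

theorem zI_natural (u w : V) (f : H (emb u) (emb w))
    (φ : Module.Dual ℚ (∀ j, KS u (Sum.elim (vg2 (N := N)) vg0 j)))
    (hφ : (kGlue hN u).first (eK2 vg2 vg0 u φ) = 0) :
    zI hN w (φ.comp (LinearMap.pi fun j =>
      ((hcomp (u := emb u) (x := ph (emb (Sum.elim (vg2 (N := N)) vg0 j)))).flip f).comp
        (LinearMap.proj j))) = yact (mm N) f.1 (zI hN u φ) := by
  refine sub_eq_zero.1 ((Module.forall_dual_apply_eq_zero_iff ℚ _).1 fun η => ?_)
  refine (map_sub η _ _).trans (sub_eq_zero.2 ?_)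
  refine (apply_zI hN w _ η).trans (Eq.trans ?_ (apply_zI hN u φ (η.comp (yact (mm N) f.1))).symm)
  obtain ⟨a, ha⟩ := kap_nat (by omega : 2 ≤ N) (colAt hN u) (colAt' hN u) (colAt hN w) f η
  refine (eK2_fst (a := vg2 (N := N)) (b := vg0) _ _).trans ?_
  show φ (fun j => hcomp ((eP2 (vg2 (N := N)) vg0 w).symm (kap N w (colAt hN w) η, 0) j) f) = _
  refine (congrArg φ (eP2_compf f _)).trans ((eK2_fst φ _).symm.trans ?_)
  refine (congrArg (eK2 vg2 vg0 u φ).1 ha).trans ((map_add _ _ _).trans ?_)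
  exact (congrArg (· + _) (cycle_kinr hN u _ hφ a)).trans (zero_add _)

/-- All the facts. -/
theorem factsI : Facts (nn N) (mm N) (gI N) (mI N) (eps N) (zI hN) where
  surj := surj_eps hN
  exact₀ := exact₀_mI hN
  exact := exact_mI hN
  dual_surj := kD_surj hN
  dual_exact₁ := kD_exact₁ hN
  dual_zero := kD_zero hN
  dual_exact := kD_exact hN
  z_cycle := zI_cycle hN
  z_ker := zI_ker hN
  z_natural u w f φ hφ := zI_natural hN u w f φ ((cycle_mI hN u φ).1 hφ)

end Vale.Agent.P195.AExt
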