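import Vale.Agent.P195.Free
import Vale.Agent.P195.KMap
import Vale.Agent.P195.Glue

/-!
# P195: blocks

Sums of columns and twisted rows over a disjoint union of generators split as products, matrices
act blockwise; `gTail` is the differential of the glued complexes in terms of one copy.
-/

noncomputable section

namespace Vale.Agent.P195.AExt

open LinCat

/-! ### The glued differential -/

section Raw

variable {k : Type} [Ring k] {P0 P1 P2 P3 : Type} [AddCommGroup P0] [Module k P0]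
  [AddCommGroup P1] [Module k P1] [AddCommGroup P2] [Module k P2] [AddCommGroup P3] [Module k P3]

variable (k P0 P1 P2 P3) in
/-- The maps of one copy. -/
structure Copy where
  d1 : ℕ → P1 →ₗ[k] P0
  d2 : ℕ → P2 →ₗ[k] P1
  d3 : ℕ → P3 →ₗ[k] P2
  Ψ0 : ℕ → P0 →ₗ[k] P1
  Ψ1 : ℕ → P1 →ₗ[k] P2
  Ψ2 : ℕ → P2 →ₗ[k] P3
  θ : ℕ → P3 →ₗ[k] P0

variable (Cp : Copy k P0 P1 P2 P3)

/-- Degree `2` to degree `1`. -/
def Copy.first : P2 × P0 →ₗ[k] P1 := (Cp.d2 0).coprod (Cp.Ψ0 1)

/-- Degree `2s+4` to degree `2s+3`. -/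
def Copy.even (s : ℕ) : P2 × P0 →ₗ[k] P3 × P1 :=
  LinearMap.prod ((Cp.Ψ2 (s + 1)).comp (LinearMap.fst k P2 P0))
    ((Cp.d2 (s + 1)).coprod (Cp.Ψ0 (s + 2)))

/-- Degree `2s+3` to degree `2s+2`. -/
def Copy.odd (s : ℕ) : P3 × P1 →ₗ[k] P2 × P0 :=
  LinearMap.prod ((Cp.d3 s).coprod (Cp.Ψ1 (s + 1))) ((Cp.θ s).coprod (Cp.d1 (s + 1)))

/-- Degree `n+3` to degree `n+2`, counting copies from `s`. -/
def Copy.tail (s : ℕ) : ∀ n, GlueQ P0 P1 P2 P3 (n + 3) →ₗ[k] GlueQ P0 P1 P2 P3 (n + 2)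
  | 0 => Cp.odd s
  | 1 => Cp.even s
  | n + 2 => Copy.tail (s + 1) n

/-- The differentials. -/
def Copy.D : ∀ n, GlueQ P0 P1 P2 P3 (n + 1) →ₗ[k] GlueQ P0 P1 P2 P3 n
  | 0 => Cp.d1 0
  | 1 => Cp.first
  | n + 2 => Cp.tail 0 n

end Raw

/-- Exactness moves along isomorphisms. -/
theorem exact_of_equiv {k : Type} [Ring k] {A B C A' B' C' : Type} [AddCommGroup A] [Module k A]
    [AddCommGroup B] [Module k B] [AddCommGroup C] [Module k C] [AddCommGroup A'] [Module k A']
    [AddCommGroup B'] [Module k B'] [AddCommGroup C'] [Module k C'] {f : A →ₗ[k] B}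
    {g : B →ₗ[k] C} {f' : A' →ₗ[k] B'} {g' : B' →ₗ[k] C'} (eA : A ≃ₗ[k] A') (eB : B ≃ₗ[k] B')
    (eC : C ≃ₗ[k] C') (hf : ∀ x, eB (f x) = f' (eA x)) (hg : ∀ x, eC (g x) = g' (eB x))
    (h : Function.Exact f' g') : Function.Exact f g := by
  intro y
  rw [← eC.map_eq_zero_iff, hg, h]
  constructor
  · rintro ⟨a, ha⟩
    exact ⟨eA.symm a, eB.injective (by rw [hf, eA.apply_symm_apply, ha])⟩
  · rintro ⟨a, rfl⟩
    exact ⟨eA a, (hf a).symm⟩

/-! ### Sums of columns -/

section Free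

variable {V : Type} {C : LinCat V} {ι ι' κ : Type} (a : ι → V) (b : ι' → V)

/-- A sum of columns over a disjoint union. -/
def eR2 (u : V) : (C.free (Sum.elim a b)).X u ≃ₗ[ℚ] (C.free a).X u × (C.free b).X u :=
  LinearEquiv.sumPiEquivProdPi ℚ ι ι' fun j => C.H (Sum.elim a b j) u

variable {a b}

theorem eR2_fst {u : V} (x : (C.free (Sum.elim a b)).X u) (i : ι) :
    (eR2 a b u x).1 i = x (.inl i) := rfl

theorem eR2_snd {u : V} (x : (C.free (Sum.elim a b)).X u) (i : ι') :
    (eR2 a b u x).2 i = x (.inr i) := rfl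

/-- A map out of it adds up. -/
theorem app_sum [Fintype ι] [Fintype ι'] (M : Rep C) (y : ∀ j, M.X (Sum.elim a b j)) {u : V}
    (x : (C.free (Sum.elim a b)).X u) :
    (freeHom (Sum.elim a b) M y).app u x =
      (freeHom a M fun i => y (.inl i)).app u (eR2 a b u x).1 +
        (freeHom b M fun i => y (.inr i)).app u (eR2 a b u x).2 := by
  refine (freeHom_app M y x).trans ((Fintype.sum_sum_type _).trans ?_)
  exact congrArg₂ (· + ·)
    (freeHom_app (g := a) M (fun i => y (.inl i)) (eR2 a b u x).1).symm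
    (freeHom_app (g := b) M (fun i => y (.inr i)) (eR2 a b u x).2).symm

variable [Fintype κ] {g : κ → V}

/-- A map into it is taken componentwise. -/
theorem eR2_app (m : ∀ k, (C.free (Sum.elim a b)).X (g k)) {u : V} (x : (C.free g).X u) :
    eR2 a b u ((freeHom g (C.free (Sum.elim a b)) m).app u x) =
      ((freeHom g (C.free a) fun k i => m k (.inl i)).app u x,
        (freeHom g (C.free b) fun k i => m k (.inr i)).app u x) := by
  refine Prod.ext (funext fun i => ?_) (funext fun i => ?_)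
  · refine ((congrFun (freeHom_app (C.free (Sum.elim a b)) m x) (.inl i)).trans
      (Finset.sum_apply _ _ _)).trans ?_
    exact ((congrFun (freeHom_app (C.free a) (fun k i => m k (.inl i)) x) i).trans
      (Finset.sum_apply _ _ _)).symm
  · refine ((congrFun (freeHom_app (C.free (Sum.elim a b)) m x) (.inr i)).trans
      (Finset.sum_apply _ _ _)).trans ?_
    exact ((congrFun (freeHom_app (C.free b) (fun k i => m k (.inr i)) x) i).trans
      (Finset.sum_apply _ _ _)).symm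

/-- A zero matrix is zero. -/
theorem app_zero {M : Rep C} {u : V} (x : (C.free g).X u) :
    (freeHom g M fun _ => 0).app u x = 0 := by
  refine (freeHom_app M (fun _ => 0) x).trans (Finset.sum_eq_zero fun i _ => ?_)
  exact map_zero _

end Free

/-! ### Twisted rows -/

section Rows

variable {ι ι' κ κ' : Type} (a : ι → V) (b : ι' → V)

/-- Twisted rows over a disjoint union. -/
def eP2 (u : V) : (∀ j, KS u (Sum.elim a b j)) ≃ₗ[ℚ] (∀ i, KS u (a i)) × ∀ i, KS u (b i) :=
  LinearEquiv.sumPiEquivProdPi ℚ ι ι' fun j => KS u (Sum.elim a b j)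

/-- Their functionals. -/
def eK2 (u : V) : Module.Dual ℚ (∀ j, KS u (Sum.elim a b j)) ≃ₗ[ℚ]
    Module.Dual ℚ (∀ i, KS u (a i)) × Module.Dual ℚ (∀ i, KS u (b i)) :=
  (eP2 a b u).symm.dualMap.trans (LinearMap.coprodEquiv (R := ℚ) ℚ).symm

variable {a b} {u : V}

theorem eK2_fst (φ : Module.Dual ℚ (∀ j, KS u (Sum.elim a b j))) (y : ∀ i, KS u (a i)) :
    (eK2 a b u φ).1 y = φ ((eP2 a b u).symm (y, 0)) := rfl

theorem eK2_snd (φ : Module.Dual ℚ (∀ j, KS u (Sum.elim a b j))) (y : ∀ i, KS u (b i)) :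
    (eK2 a b u φ).2 y = φ ((eP2 a b u).symm (0, y)) := rfl

theorem eP2_symm_inl (p : (∀ i, KS u (a i)) × ∀ i, KS u (b i)) (i : ι) :
    (eP2 a b u).symm p (.inl i) = p.1 i := rfl

theorem eP2_symm_inr (p : (∀ i, KS u (a i)) × ∀ i, KS u (b i)) (i : ι') :
    (eP2 a b u).symm p (.inr i) = p.2 i := rfl

theorem kmap_inl [Fintype ι] [Fintype ι'] {c : κ → V} (m : Mat c (Sum.elim a b))
    (y : ∀ i, KS u (a i)) :
    kmap u m ((eP2 a b u).symm (y, 0)) = kmap u (fun k i => m k (.inl i)) y := by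
  funext k
  refine (kmap_apply m _ k).trans ((Fintype.sum_sum_type _).trans ?_)
  refine Eq.trans ?_ (kmap_apply (fun k i => m k (.inl i)) y k).symm
  refine (congrArg₂ (· + ·) rfl (Finset.sum_eq_zero fun i _ => ?_)).trans (add_zero _)
  exact map_zero _

theorem kmap_inr [Fintype ι] [Fintype ι'] {c : κ → V} (m : Mat c (Sum.elim a b))
    (y : ∀ i, KS u (b i)) :
    kmap u m ((eP2 a b u).symm (0, y)) = kmap u (fun k i => m k (.inr i)) y := by
  funext k
  refine (kmap_apply m _ k).trans ((Fintype.sum_sum_type _).trans ?_)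
  refine Eq.trans ?_ (kmap_apply (fun k i => m k (.inr i)) y k).symm
  refine (congrArg₂ (· + ·) (Finset.sum_eq_zero fun i _ => ?_) rfl).trans (zero_add _)
  exact map_zero _

theorem kmap_out {c : κ → V} {c' : κ' → V} [Fintype ι] (m : Mat (Sum.elim c c') a)
    (y : ∀ i, KS u (a i)) :
    kmap u m y = (eP2 c c' u).symm
      (kmap u (fun k i => m (.inl k) i) y, kmap u (fun k i => m (.inr k) i) y) := by
  funext j
  rcases j with k | k
  · exact (kmap_apply m y _).trans (kmap_apply (fun k i => m (.inl k) i) y k).symm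
  · exact (kmap_apply m y _).trans (kmap_apply (fun k i => m (.inr k) i) y k).symm

/-- A functional on a union evaluates blockwise. -/
theorem apply_eP2_symm (φ : Module.Dual ℚ (∀ j, KS u (Sum.elim a b j)))
    (p : (∀ i, KS u (a i)) × ∀ i, KS u (b i)) :
    φ ((eP2 a b u).symm p) = (eK2 a b u φ).1 p.1 + (eK2 a b u φ).2 p.2 := by
  rw [eK2_fst, eK2_snd, ← map_add, ← map_add]
  simp

end Rows

end Vale.Agent.P195.AExt
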