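import Vale.Agent.P195.AExt.Blocks
import Vale.Agent.P195.ResGen

/-!
# P195: the generators and matrices of the glued resolution

`GI N l` are the generators in degree `l`, `gI` their vertices and `mI` the matrices over `catA0`.
`copyR` and `copyK` are one copy at a vertex and its twisted transpose; `eRI`, `eKI` identify the
glued complexes with those of the matrices `mI`.
-/

noncomputable section

namespace Vale.Agent.P195.AExt

open LinCat Res

variable (N : ℕ)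

/-- The generators in degree `l`. -/
def GI : ℕ → Type
  | 0 => G0 N
  | 1 => G1 N
  | 2 => G2 N ⊕ G0 N
  | 3 => G3 N ⊕ G1 N
  | n + 4 => GI (n + 2)

instance GI.fintype : ∀ l, Fintype (GI N l)
  | 0 => inferInstanceAs (Fintype (G0 N))
  | 1 => inferInstanceAs (Fintype (G1 N))
  | 2 => inferInstanceAs (Fintype (G2 N ⊕ G0 N))
  | 3 => inferInstanceAs (Fintype (G3 N ⊕ G1 N))
  | n + 4 => GI.fintype (n + 2)

/-- Their vertices. -/
def gI : ∀ l, GI N l → V
  | 0 => vg0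
  | 1 => vg1
  | 2 => Sum.elim vg2 vg0
  | 3 => Sum.elim vg3 vg1
  | n + 4 => gI (n + 2)

/-- Degree `2` to degree `1`. -/
def mFirst : ∀ j : G2 N ⊕ G0 N, (catA0.free (vg1 (N := N))).X (Sum.elim vg2 vg0 j)
  | .inl g => d2 N 0 g
  | .inr g => Psi0 N g

/-- Degree `2s+3` to degree `2s+2`. -/
def mOdd (s : ℕ) : ∀ (j : G3 N ⊕ G1 N) (i : G2 N ⊕ G0 N),
    catA0.H (Sum.elim vg2 vg0 i) (Sum.elim vg3 vg1 j)
  | .inl g, .inl h => d3 N s g h
  | .inl g, .inr h => th N s g h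
  | .inr g, .inl h => Psi1 N g h
  | .inr g, .inr h => d1 N (s + 1) g h

/-- Degree `2s+4` to degree `2s+3`. -/
def mEven (s : ℕ) : ∀ (j : G2 N ⊕ G0 N) (i : G3 N ⊕ G1 N),
    catA0.H (Sum.elim vg3 vg1 i) (Sum.elim vg2 vg0 j)
  | .inl g, .inl h => Psi2 N g h
  | .inl g, .inr h => d2 N (s + 1) g h
  | .inr _, .inl _ => 0
  | .inr g, .inr h => Psi0 N g h

/-- Degree `n+3` to degree `n+2`, counting copies from `s`. -/
def mTail (s : ℕ) : ∀ n, ∀ j : GI N (n + 3), (catA0.free (gI N (n + 2))).X (gI N (n + 3) j)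
  | 0 => mOdd N s
  | 1 => mEven N s
  | n + 2 => mTail (s + 1) n

/-- The matrices. -/
def mI : ∀ l, ∀ j : GI N (l + 1), (catA0.free (gI N l)).X (gI N (l + 1) j)
  | 0 => d1 N 0
  | 1 => mFirst N
  | n + 2 => mTail N 0 n

/-! ### At a vertex -/

variable (u : V)

/-- Level zero at `u`. -/
abbrev R0 : Type := (catA0.free (vg0 (N := N))).X u
/-- Level one at `u`. -/
abbrev R1 : Type := (catA0.free (vg1 (N := N))).X u
/-- Level two at `u`. -/
abbrev R2 : Type := (catA0.free (vg2 (N := N))).X u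
/-- Level three at `u`. -/
abbrev R3 : Type := (catA0.free (vg3 (N := N))).X u
/-- Functionals on twisted rows at level zero. -/
abbrev D0K : Type := Module.Dual ℚ (∀ h : G0 N, KS u (vg0 h))
/-- Functionals on twisted rows at level one. -/
abbrev D1K : Type := Module.Dual ℚ (∀ h : G1 N, KS u (vg1 h))
/-- Functionals on twisted rows at level two. -/
abbrev D2K : Type := Module.Dual ℚ (∀ h : G2 N, KS u (vg2 h))
/-- Functionals on twisted rows at level three. -/
abbrev D3K : Type := Module.Dual ℚ (∀ h : G3 N, KS u (vg3 h))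

/-- One copy at `u`. -/
def copyR : Copy ℚ (R0 N u) (R1 N u) (R2 N u) (R3 N u) where
  d1 k := (freeHom vg1 (catA0.free vg0) (d1 N k)).app u
  d2 k := (freeHom vg2 (catA0.free vg1) (d2 N k)).app u
  d3 k := (freeHom vg3 (catA0.free vg2) (d3 N k)).app u
  Ψ0 _ := (freeHom vg0 (catA0.free vg1) (Psi0 N)).app u
  Ψ1 _ := (freeHom vg1 (catA0.free vg2) (Psi1 N)).app u
  Ψ2 _ := (freeHom vg2 (catA0.free vg3) (Psi2 N)).app u
  θ k := (freeHom vg3 (catA0.free vg0) (th N k)).app u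

/-- One copy of functionals at `u`. -/
def copyK : Copy ℚ (D0K N u) (D1K N u) (D2K N u) (D3K N u) where
  d1 k := (kmap u (vi := vg1) (vk := vg0) (d1 N k)).dualMap
  d2 k := (kmap u (vi := vg2) (vk := vg1) (d2 N k)).dualMap
  d3 k := (kmap u (vi := vg3) (vk := vg2) (d3 N k)).dualMap
  Ψ0 _ := (kmap u (vi := vg0) (vk := vg1) (Psi0 N)).dualMap
  Ψ1 _ := (kmap u (vi := vg1) (vk := vg2) (Psi1 N)).dualMap
  Ψ2 _ := (kmap u (vi := vg2) (vk := vg3) (Psi2 N)).dualMap
  θ k := (kmap u (vi := vg3) (vk := vg0) (th N k)).dualMap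

/-- The identification in degree `l`. -/
def eRI : ∀ l, (catA0.free (gI N l)).X u ≃ₗ[ℚ] GlueQ (R0 N u) (R1 N u) (R2 N u) (R3 N u) l
  | 0 => LinearEquiv.refl ℚ _
  | 1 => LinearEquiv.refl ℚ _
  | 2 => eR2 vg2 vg0 u
  | 3 => eR2 vg3 vg1 u
  | n + 4 => eRI (n + 2)

/-- Functionals on twisted rows at the generators `g`. -/
def KD {ι : Type} (g : ι → V) (u : V) : Type := Module.Dual ℚ (∀ i, KS u (g i))

instance {ι : Type} (g : ι → V) (u : V) : AddCommGroup (KD g u) :=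
  inferInstanceAs (AddCommGroup (Module.Dual ℚ (∀ i, KS u (g i))))

instance {ι : Type} (g : ι → V) (u : V) : Module ℚ (KD g u) :=
  inferInstanceAs (Module ℚ (Module.Dual ℚ (∀ i, KS u (g i))))

/-- The transpose of a matrix. -/
def kD {ι κ : Type} [Fintype ι] {g : ι → V} {g' : κ → V} (m : ∀ j, (catA0.free g).X (g' j))
    (u : V) : KD g' u →ₗ[ℚ] KD g u :=
  (kmap u (vi := g') (vk := g) fun j i => m j i).dualMap

/-- A matrix on sums of columns. -/
def fD {ι κ : Type} [Fintype κ] {g : ι → V} {g' : κ → V} (m : ∀ j, (catA0.free g).X (g' j))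
    (u : V) : (catA0.free g').X u →ₗ[ℚ] (catA0.free g).X u :=
  (freeHom g' (catA0.free g) m).app u

/-- The glued functionals in degree `l`. -/
abbrev QK (l : ℕ) : Type := GlueQ (D0K N u) (D1K N u) (D2K N u) (D3K N u) l

/-- Degree `0`. -/
def eKI₀ : KD (gI N 0) u ≃ₗ[ℚ] QK N u 0 := LinearEquiv.refl ℚ (D0K N u)

/-- Degree `1`. -/
def eKI₁ : KD (gI N 1) u ≃ₗ[ℚ] QK N u 1 := LinearEquiv.refl ℚ (D1K N u)

/-- Degree `2`. -/
def eKI₂ : KD (gI N 2) u ≃ₗ[ℚ] QK N u 2 := eK2 vg2 vg0 u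

/-- Degree `3`. -/
def eKI₃ : KD (gI N 3) u ≃ₗ[ℚ] QK N u 3 := eK2 vg3 vg1 u

/-- Two degrees on. -/
def eKIStep (n : ℕ) (e : KD (gI N (n + 2)) u ≃ₗ[ℚ] QK N u (n + 2)) :
    KD (gI N (n + 4)) u ≃ₗ[ℚ] QK N u (n + 4) := e

/-- The identification of functionals in degree `l`. -/
def eKI : ∀ l, KD (gI N l) u ≃ₗ[ℚ] QK N u l
  | 0 => eKI₀ N u
  | 1 => eKI₁ N u
  | 2 => eKI₂ N u
  | 3 => eKI₃ N u
  | n + 4 => eKIStep N u n (eKI (n + 2))

theorem eR2_odd (s : ℕ) (x : (catA0.free (Sum.elim (vg3 (N := N)) vg1)).X u) :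
    eR2 vg2 vg0 u ((freeHom (Sum.elim vg3 vg1) (catA0.free (Sum.elim vg2 vg0)) (mOdd N s)).app u x) =
      (copyR N u).odd s (eR2 vg3 vg1 u x) :=
  (eR2_app (C := catA0) _ x).trans (Prod.ext
    (app_sum (C := catA0) (catA0.free vg2) _ x) (app_sum (C := catA0) (catA0.free vg0) _ x))

theorem eR2_even (s : ℕ) (x : (catA0.free (Sum.elim (vg2 (N := N)) vg0)).X u) :
    eR2 vg3 vg1 u ((freeHom (Sum.elim vg2 vg0) (catA0.free (Sum.elim vg3 vg1)) (mEven N s)).app u x) =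
      (copyR N u).even s (eR2 vg2 vg0 u x) :=
  (eR2_app (C := catA0) _ x).trans (Prod.ext
    ((app_sum (C := catA0) (catA0.free vg3) _ x).trans
      ((congrArg (_ + ·) (app_zero (C := catA0) (g := vg0 (N := N)) (M := catA0.free vg3) _)).trans
        (add_zero _)))
    (app_sum (C := catA0) (catA0.free vg1) _ x))

theorem eK2_odd (s : ℕ) (φ : Module.Dual ℚ (∀ j, KS u (Sum.elim (vg3 (N := N)) vg1 j))) :
    eK2 vg2 vg0 u ((kmap u (vi := Sum.elim vg3 vg1) (vk := Sum.elim vg2 vg0)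
        (mOdd N s)).dualMap φ) = (copyK N u).odd s (eK2 vg3 vg1 u φ) :=
  Prod.ext
    (LinearMap.ext fun y => (eK2_fst _ y).trans
      ((congrArg φ ((kmap_inl _ y).trans (kmap_out _ y))).trans (apply_eP2_symm φ _)))
    (LinearMap.ext fun y => (eK2_snd _ y).trans
      ((congrArg φ ((kmap_inr _ y).trans (kmap_out _ y))).trans (apply_eP2_symm φ _)))

theorem eK2_even (s : ℕ) (φ : Module.Dual ℚ (∀ j, KS u (Sum.elim (vg2 (N := N)) vg0 j))) :
    eK2 vg3 vg1 u ((kmap u (vi := Sum.elim vg2 vg0) (vk := Sum.elim vg3 vg1)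
        (mEven N s)).dualMap φ) = (copyK N u).even s (eK2 vg2 vg0 u φ) :=
  Prod.ext
    (LinearMap.ext fun y => (eK2_fst _ y).trans
      (((congrArg φ ((kmap_inl _ y).trans (kmap_out _ y))).trans (apply_eP2_symm φ _)).trans
        ((congrArg (_ + ·) ((congrArg _ (kmap_zero (vi := vg0 (N := N)) (vk := vg3 (N := N)) y)).trans
          (map_zero _))).trans (add_zero _))))
    (LinearMap.ext fun y => (eK2_snd _ y).trans
      ((congrArg φ ((kmap_inr _ y).trans (kmap_out _ y))).trans (apply_eP2_symm φ _)))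

theorem eK2_first (φ : Module.Dual ℚ (∀ j, KS u (Sum.elim (vg2 (N := N)) vg0 j))) :
    (kmap u (vi := Sum.elim vg2 vg0) (vk := vg1) (mFirst N)).dualMap φ =
      (copyK N u).first (eK2 vg2 vg0 u φ) :=
  LinearMap.ext fun y => (congrArg φ (kmap_out _ y)).trans (apply_eP2_symm φ _)

theorem eRI_tail : ∀ n s x,
    eRI N u (n + 2) (fD (mTail N s n) u x) =
      (copyR N u).tail s n (eRI N u (n + 3) x)
  | 0, s, x => eR2_odd N u s x
  | 1, s, x => eR2_even N u s x
  | n + 2, s, x => eRI_tail n (s + 1) x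

theorem eKI_tail : ∀ n s φ,
    eKI N u (n + 2) (kD (mTail N s n) u φ) =
      (copyK N u).tail s n (eKI N u (n + 3) φ)
  | 0, s, φ => eK2_odd N u s φ
  | 1, s, φ => eK2_even N u s φ
  | n + 2, s, φ => eKI_tail n (s + 1) φ

/-- The matrices give the glued complex. -/
theorem eRI_D : ∀ l x,
    eRI N u l (fD (mI N l) u x) =
      (copyR N u).D l (eRI N u (l + 1) x)
  | 0, _ => rfl
  | 1, x => app_sum (C := catA0) (catA0.free vg1) (mFirst N) x
  | n + 2, x => eRI_tail N u n 0 x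

/-- The matrices give the glued complex of functionals. -/
theorem eKI_D : ∀ l φ,
    eKI N u l (kD (mI N l) u φ) =
      (copyK N u).D l (eKI N u (l + 1) φ)
  | 0, _ => rfl
  | 1, φ => eK2_first N u φ
  | n + 2, φ => eKI_tail N u n 0 φ

end Vale.Agent.P195.AExt
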