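import Vale.Agent.P195.Defs
import Vale.Agent.P195.Free
import Vale.Agent.P195.KMap

/-!
# P195: sums of columns of the algebra as products

At a vertex `u`, a sum of columns of `catA` is the same sum over `catA0` times the dual of
`KU g u = ∏ H(u, ph (g i))`; a matrix over `catA0` acts on it as itself times the transpose
of `coD`, composition with the shifted matrix.
-/

noncomputable section

namespace Vale.Agent.P195.AExt

open LinCat

variable {ι κ : Type} {g : ι → V} {g' : κ → V}

/-- A matrix over `catA0`, read over `catA`. -/
def liftMat (m : ∀ j, (catA0.free g).X (g' j)) : ∀ j, (catA.free g).X (g' j) :=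
  fun j i => (m j i, 0)

/-- The arrows from `u` to the shifted generators. -/
abbrev KU (g : ι → V) (u : V) : Type := ∀ i, KS u (g i)

variable [Fintype ι]

/-- Composition with the shifted matrix, i.e. `kmap`. -/
abbrev coD (m : ∀ j, (catA0.free g).X (g' j)) (u : V) : KU g u →ₗ[ℚ] KU g' u :=
  kmap u (vi := g') (vk := g) (fun j i => m j i)

theorem coD_apply (m : ∀ j, (catA0.free g).X (g' j)) (u : V) (y : KU g u) (j : κ) :
    coD m u y j = ∑ i, hcomp (phH (m j i)) (y i) :=
  kmap_apply (vi := g') (vk := g) (fun j i => m j i) y j

variable (g) in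
/-- The `catA0` part and the functional. -/
def split (u : V) : (catA.free g).X u →ₗ[ℚ] (catA0.free g).X u × Module.Dual ℚ (KU g u) where
  toFun x := (fun i => (x i).1, ∑ i, ((x i).2 : HD (g i) u).comp (LinearMap.proj i))
  map_add' x y := by
    refine Prod.ext rfl ?_
    ext z
    simp [← Finset.sum_add_distrib]
    rfl
  map_smul' r x := by
    refine Prod.ext rfl ?_
    ext z
    simp [Finset.mul_sum]
    rfl

theorem split_fst (u : V) (x : (catA.free g).X u) (i : ι) : (split g u x).1 i = (x i).1 := rfl

theorem split_snd (u : V) (x : (catA.free g).X u) (y : KU g u) :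
    (split g u x).2 y = ∑ i, ((x i).2 : HD (g i) u) (y i) := by
  simp [split]

theorem split_bijective (u : V) : Function.Bijective (split g u) := by
  classical
  refine ⟨(injective_iff_map_eq_zero _).2 fun x hx => funext fun i => Prod.ext ?_ ?_, fun p => ?_⟩
  · exact congrFun (congrArg Prod.fst hx) i
  · refine LinearMap.ext fun h => ?_
    have := LinearMap.congr_fun (congrArg Prod.snd hx)
      (Pi.single (M := fun i => H (emb u) (ph (emb (g i)))) i h)
    rw [split_snd, Fintype.sum_eq_single i fun j hj => by simp [hj], Pi.single_eq_same] at this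
    exact this
  · refine ⟨fun i => (p.1 i, p.2.comp (LinearMap.single ℚ (fun i => H (emb u) (ph (emb (g i)))) i)), Prod.ext rfl ?_⟩
    refine LinearMap.ext fun y => (split_snd u _ y).trans ?_
    simp only [LinearMap.comp_apply, ← map_sum]
    exact congrArg p.2 (Finset.univ_sum_single y)

variable [Fintype κ]

/-- A lifted matrix acts as the matrix and as the transpose of `coD`. -/
theorem split_liftMat (m : ∀ j, (catA0.free g).X (g' j)) (u : V) (x : (catA.free g').X u) :
    split g u ((freeHom g' (catA.free g) (liftMat m)).app u x) =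
      ((freeHom g' (catA0.free g) m).app u (split g' u x).1,
        (split g' u x).2.comp (coD m u)) := by
  have e : ∀ j i, (acomp (x j) ((m j i, 0) : HA (g i) (g' j))) =
      ((hcomp ((x j).1 : H (emb (g' j)) (emb u)) (m j i),
        dualR ((x j).2 : HD (g' j) u) (m j i)) : HA (g i) u) := fun j i => by
    refine (acomp_apply (x j) (m j i, 0)).trans (Prod.ext rfl ?_)
    show dualL _ (0 : HD (g i) (g' j)) + _ = _
    rw [map_zero, zero_add]
  have e' : ∀ i, (freeHom g' (catA.free g) (liftMat m)).app u x i =
      ((∑ j, hcomp ((x j).1 : H (emb (g' j)) (emb u)) (m j i),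
        ∑ j, dualR ((x j).2 : HD (g' j) u) (m j i)) : HA (g i) u) := fun i => by
    rw [freeHom_app (g := g') (catA.free g) (liftMat m) x, Finset.sum_apply]
    exact (Finset.sum_congr rfl fun j _ => e j i).trans (Prod.ext Prod.fst_sum Prod.snd_sum)
  refine Prod.ext (funext fun i => ?_) (LinearMap.ext fun y => ?_)
  · refine (split_fst u _ i).trans ((congrArg Prod.fst (e' i)).trans ?_)
    exact ((congrFun (freeHom_app (g := g') (catA0.free g) m (split g' u x).1) i).trans
      (Finset.sum_apply i _ _)).symm
  · refine (split_snd u _ y).trans ?_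
    refine (Finset.sum_congr rfl fun i _ =>
      LinearMap.congr_fun (congrArg Prod.snd (e' i)) (y i)).trans ?_
    refine Eq.trans ?_ (split_snd u x (coD m u y)).symm
    simp only [coD_apply, map_sum, LinearMap.sum_apply]
    exact Finset.sum_comm

omit [Fintype κ] in
/-- Lifted matrices act on `repY` as the matrices do on `repY0`. -/
theorem liftMat_repY (m : ∀ j, (catA0.free g).X (g' j)) (n : ℤ) (y : ∀ i, (repY n).X (g i))
    (j : κ) : (freeHom g (repY n) y).app _ (liftMat m j) =
      (freeHom g (repY0 n) y).app _ (m j) := by
  rw [freeHom_app (g := g) (repY n) y (liftMat m j), freeHom_app (g := g) (repY0 n) y (m j)]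
  rfl

/-- Maps from a sum of columns to `repY` only see the `catA0` part. -/
theorem app_repY (n : ℤ) (y : ∀ i, (repY n).X (g i)) (u : V) (x : (catA.free g).X u) :
    (freeHom g (repY n) y).app u x = (freeHom g (repY0 n) y).app u (split g u x).1 := by
  rw [freeHom_app (g := g) (repY n) y x, freeHom_app (g := g) (repY0 n) y (split g u x).1]
  rfl

end Vale.Agent.P195.AExt
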