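import Vale.Agent.P195.AExt.Split

/-!
# P195: from resolutions over `catA0` to `Ext` over the algebra

If a complex of sums of columns over `catA0` resolves `Y n` at every vertex and `coD` has
transposed homology only in degree two, read off naturally in the vertex by `Y n'`, then
over `catA` it has homology `Y n` and `Y n'` in degrees zero and two, and the family lemma applies.
-/

noncomputable section

namespace Vale.Agent.P195.AExt

open LinCat

variable {I : ℕ → Type} [∀ l, Fintype (I l)] {g : ∀ l, I l → V}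

/-- The differential over `catA0` at `u`. -/
abbrev D0 (m : ∀ l, ∀ j : I (l + 1), (catA0.free (g l)).X (g (l + 1) j)) (l : ℕ) (u : V) :
    (catA0.free (g (l + 1))).X u →ₗ[ℚ] (catA0.free (g l)).X u :=
  (freeHom (g (l + 1)) (catA0.free (g l)) (m l)).app u

/-- What is needed of the resolution of `Y n` and of the transposed twisted rows: `z` reads the
only homology of the latter, in degree two. -/
structure Facts (n n' : ℤ) (g : ∀ l, I l → V)
    (m : ∀ l, ∀ j : I (l + 1), (catA0.free (g l)).X (g (l + 1) j))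
    (e : ∀ j, (repY0 n).X (g 0 j))
    (z : ∀ u, Module.Dual ℚ (∀ i, KS u (g 2 i)) →ₗ[ℚ] Y n' (emb u)) : Prop where
  surj : ∀ u, Function.Surjective ((freeHom (g 0) (repY0 n) e).app u)
  exact₀ : ∀ u, Function.Exact (D0 m 0 u) ((freeHom (g 0) (repY0 n) e).app u)
  exact : ∀ l u, Function.Exact (D0 m (l + 1) u) (D0 m l u)
  dual_surj : ∀ u, Function.Surjective (coD (m 0) u).dualMap
  dual_exact₁ : ∀ u, Function.Exact (coD (m 1) u).dualMap (coD (m 0) u).dualMap
  dual_zero : ∀ u φ, (coD (m 1) u).dualMap ((coD (m 2) u).dualMap φ) = 0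
  dual_exact : ∀ l u,
    Function.Exact (coD (m (l + 2 + 1)) u).dualMap (coD (m (l + 2)) u).dualMap
  z_cycle : ∀ u y, ∃ φ, (coD (m 1) u).dualMap φ = 0 ∧ z u φ = y
  z_ker : ∀ u φ, (coD (m 1) u).dualMap φ = 0 →
    (z u φ = 0 ↔ φ ∈ LinearMap.range (coD (m 2) u).dualMap)
  z_natural : ∀ u w (f : H (emb u) (emb w)) φ, (coD (m 1) u).dualMap φ = 0 →
    z w (φ.comp (LinearMap.pi fun i =>
      ((hcomp (u := emb u) (x := ph (emb (g 2 i)))).flip f).comp (LinearMap.proj i))) =
      yact n' f.1 (z u φ)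

variable {n n' : ℤ} {m : ∀ l, ∀ j : I (l + 1), (catA0.free (g l)).X (g (l + 1) j)}
  {e : ∀ j, (repY0 n).X (g 0 j)}
  {z : ∀ u, Module.Dual ℚ (∀ i, KS u (g 2 i)) →ₗ[ℚ] Y n' (emb u)}

/-- The differential over `catA` at `u`. -/
abbrev DA (m : ∀ l, ∀ j : I (l + 1), (catA0.free (g l)).X (g (l + 1) j)) (l : ℕ) (u : V) :
    (catA.free (g (l + 1))).X u →ₗ[ℚ] (catA.free (g l)).X u :=
  (freeHom (g (l + 1)) (catA.free (g l)) (liftMat (m l))).app u

theorem DA_eq_zero_iff (l : ℕ) (u : V) (x : (catA.free (g (l + 1))).X u) :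
    DA m l u x = 0 ↔
      D0 m l u (split _ u x).1 = 0 ∧ ((split _ u x).2).comp (coD (m l) u) = 0 := by
  rw [← map_eq_zero_iff _ (split_bijective (g := g l) u).1, split_liftMat, Prod.mk_eq_zero]

theorem mem_range_DA_iff (l : ℕ) (u : V) (x : (catA.free (g l)).X u) :
    x ∈ LinearMap.range (DA m l u) ↔ (split _ u x).1 ∈ LinearMap.range (D0 m l u) ∧
      (split _ u x).2 ∈ LinearMap.range (coD (m l) u).dualMap := by
  constructor
  · rintro ⟨y, rfl⟩
    rw [split_liftMat]
    exact ⟨⟨_, rfl⟩, _, rfl⟩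
  · rintro ⟨⟨a, ha⟩, φ, hφ⟩
    obtain ⟨y, hy⟩ := (split_bijective (g := g (l + 1)) u).2 (a, φ)
    refine ⟨y, (split_bijective (g := g l) u).1 ?_⟩
    rw [split_liftMat, hy]
    exact Prod.ext ha hφ

theorem exact_DA (l : ℕ) (u : V) (h : Function.Exact (D0 m (l + 1) u) (D0 m l u))
    (h' : Function.Exact (coD (m (l + 1)) u).dualMap (coD (m l) u).dualMap) :
    Function.Exact (DA m (l + 1) u) (DA m l u) := fun x =>
  (DA_eq_zero_iff l u x).trans ((and_congr (h _) (h' (split _ u x).2)).trans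
    (mem_range_DA_iff (l + 1) u x).symm)

theorem exact_DA₁ (u : V) (h : Function.Exact (D0 m 1 u) (D0 m 0 u))
    (h' : Function.Exact (coD (m 1) u).dualMap (coD (m 0) u).dualMap) :
    Function.Exact (DA m 1 u) (DA m 0 u) := fun x =>
  (DA_eq_zero_iff 0 u x).trans ((and_congr (h _) (h' (split _ u x).2)).trans
    (mem_range_DA_iff 1 u x).symm)

theorem act_DA (l : ℕ) (u w : V) (f : catA.H u w) (y : (catA.free (g (l + 1))).X u) :
    (catA.free (g l)).act f (DA m l u y) = DA m l w ((catA.free (g (l + 1))).act f y) :=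
  ((freeHom (g (l + 1)) (catA.free (g l)) (liftMat (m l))).nat f y).symm

namespace Facts

variable (F : Facts n n' g m e z)
include F

theorem exact₀A (u : V) :
    Function.Exact (DA m 0 u) ((freeHom (g 0) (repY n) e).app u) := fun x =>
  (show ((freeHom (g 0) (repY n) e).app u x = 0 ↔ _) from
    (Iff.of_eq (congrArg (· = 0) (app_repY n e u x))).trans (F.exact₀ u _)).trans
    ((iff_self_and.2 fun _ => F.dual_surj u _).trans
      (mem_range_DA_iff 0 u x).symm)

omit F in
/-- The class in `Y n'` of a chain in degree two. -/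
def zMap (z : ∀ u, Module.Dual ℚ (∀ i, KS u (g 2 i)) →ₗ[ℚ] Y n' (emb u)) (u : V) :
    (catA.free (g 2)).X u →ₗ[ℚ] Y n' (emb u) :=
  (z u).comp ((LinearMap.snd ℚ _ _).comp (split (g 2) u))

theorem z_kernel (u : V) (x : (catA.free (g 2)).X u) (hx : DA m 1 u x = 0) :
    zMap z u x = 0 ↔ x ∈ LinearMap.range (DA m 2 u) := by
  have h12 := (DA_eq_zero_iff 1 u x).1 hx
  have hx1 : (split (g 2) u x).1 ∈ LinearMap.range (D0 m 2 u) := (F.exact 1 u _).1 h12.1
  refine Iff.trans ?_ (mem_range_DA_iff 2 u x).symm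
  exact (F.z_ker u (split (g 2) u x).2 h12.2).trans (and_iff_right hx1).symm

theorem z_onto (u : V) (y : Y n' (emb u)) : ∃ x, DA m 1 u x = 0 ∧ zMap z u x = y := by
  obtain ⟨φ, hφ, hφy⟩ := F.z_cycle u y
  obtain ⟨x, hx⟩ := (split_bijective (g := g 2) u).2 (0, φ)
  refine ⟨x, (DA_eq_zero_iff 1 u x).2 ⟨?_, ?_⟩, ?_⟩
  · exact (congrArg (D0 m 1 u) (congrArg Prod.fst hx)).trans (map_zero _)
  · exact (congrArg (fun ψ => LinearMap.comp ψ (coD (m 1) u)) (congrArg Prod.snd hx)).trans hφ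
  · exact (congrArg (z u) (congrArg Prod.snd hx)).trans hφy

theorem z_boundary (u : V) (y : (catA.free (g 3)).X u) :
    DA m 1 u (DA m 2 u y) = 0 ∧ zMap z u (DA m 2 u y) = 0 := by
  have h : DA m 1 u (DA m 2 u y) = 0 := by
    refine (DA_eq_zero_iff 1 u _).2 ⟨?_, ?_⟩
    · exact (congrArg (D0 m 1 u) (congrArg Prod.fst (split_liftMat (m 2) u y))).trans
        ((F.exact 1 u).apply_apply_eq_zero _)
    · exact (congrArg (fun ψ => LinearMap.comp ψ (coD (m 1) u))
        (congrArg Prod.snd (split_liftMat (m 2) u y))).trans (F.dual_zero u _)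
  exact ⟨h, (F.z_kernel u _ h).2 ⟨y, rfl⟩⟩

/-- On chains without `catA0` part the naturality is that of `z`. -/
theorem z_act (u w : V) (f : catA.H u w) (x : (catA.free (g 2)).X u) (hx : DA m 1 u x = 0)
    (h0 : ∀ i, (x i).1 = 0) :
    zMap z w ((catA.free (g 2)).act f x) = (repY n').act f (zMap z u x) := by
  have key : ∀ i, ((catA.free (g 2)).act f x i).2 =
      dualL (i := g 2 i) (f.1 : H (emb u) (emb w)) ((x i).2 : HD (g 2 i) u) := fun i => by
    refine (congrArg Prod.snd (acomp_apply f (x i))).trans ?_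
    show dualL _ _ + dualR _ (x i).1 = _
    rw [h0 i]
    exact (congrArg (_ + ·) (map_zero _)).trans (add_zero _)
  refine Eq.trans ?_ (F.z_natural u w (f.1 : H (emb u) (emb w)) (split (g 2) u x).2
    ((DA_eq_zero_iff 1 u x).1 hx).2)
  refine congrArg (z w) (LinearMap.ext fun y => ?_)
  refine (split_snd w _ y).trans ?_
  refine (Finset.sum_congr rfl fun i _ => LinearMap.congr_fun (key i) (y i)).trans ?_
  exact (split_snd u x _).symm

theorem z_nat (u w : V) (f : catA.H u w) (x : (catA.free (g 2)).X u) (hx : DA m 1 u x = 0) :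
    zMap z w ((catA.free (g 2)).act f x) = (repY n').act f (zMap z u x) := by
  obtain ⟨y0, hy0⟩ := (F.exact 1 u _).1 ((DA_eq_zero_iff 1 u x).1 hx).1
  obtain ⟨y, hy⟩ := (split_bijective (g := g 3) u).2 (y0, 0)
  have hz : zMap z w ((catA.free (g 2)).act f (DA m 2 u y)) = 0 := by
    have h1 := (F.z_boundary w ((catA.free (g 3)).act f y)).2
    have h2 := act_DA (g := g) (m := m) 2 u w f y
    exact (congrArg (zMap z w) h2).trans h1
  set x' := x - DA m 2 u y with hx'def
  have hx' : DA m 1 u x' = 0 := by rw [hx'def, map_sub, hx, (F.z_boundary u y).1, sub_zero]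
  have hfst : ∀ i, (x' i).1 = 0 := fun i => by
    have e1 : (split (g 2) u (DA m 2 u y)).1 = (split (g 2) u x).1 :=
      (congrArg Prod.fst (split_liftMat (m 2) u y)).trans
        ((congrArg (D0 m 2 u) (congrArg Prod.fst hy)).trans hy0)
    show (x i).1 - (DA m 2 u y i).1 = 0
    exact sub_eq_zero.2 (congrFun e1 i).symm
  have hxx : x = x' + DA m 2 u y := (sub_add_cancel _ _).symm
  rw [hxx, map_add, map_add, map_add, hz, (F.z_boundary u y).2, add_zero, add_zero]
  exact F.z_act u w f x' hx' hfst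

end Facts

/-- The family lemma over the algebra. -/
theorem extVan_repY {m₀ : ℤ} {N : ℕ → ℤ} {I : ℕ → ℕ → Type} [∀ d l, Fintype (I d l)]
    {g : ∀ d l, I d l → V}
    {m : ∀ d l, ∀ j : I d (l + 1), (catA0.free (g d l)).X (g d (l + 1) j)}
    {e : ∀ d, ∀ j, (repY0 (N d)).X (g d 0 j)}
    {z : ∀ d u, Module.Dual ℚ (∀ i, KS u (g d 2 i)) →ₗ[ℚ] Y (N (d + 1)) (emb u)}
    (F : ∀ d, Facts (N d) (N (d + 1)) (g d) (m d) (e d) (z d))
    (hc : ∀ d l (y : ∀ j, (repY0 m₀).X (g d (l + 1) j)),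
      (∀ j, (freeHom (g d (l + 1)) (repY0 m₀) y).app _ (m d (l + 1) j) = 0) →
      ∃ x : ∀ j, (repY0 m₀).X (g d l j),
        ∀ j, (freeHom (g d l) (repY0 m₀) x).app _ (m d l j) = y j)
    (hH : ∀ d (φ : Rep.Hom (repY0 (N (d + 1))) (repY0 m₀)) u x, φ.app u x = 0) :
    ∀ i d, ExtVan catA.Alg (repY (N d)).Tot (repY m₀).Tot (i + 1) := by
  have hε : ∀ d u, Function.Surjective
      ((freeHom (g d 0) (repY (N d)) (fun j => (e d j : (repY (N d)).X (g d 0 j)))).app u) :=
    fun d u y => by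
      obtain ⟨a, rfl⟩ := (F d).surj u y
      obtain ⟨x, hx⟩ := (split_bijective (g := g d 0) u).2 (a, 0)
      exact ⟨x, (app_repY _ _ u x).trans
        (congrArg ((freeHom (g d 0) (repY0 (N d)) (e d)).app u) (congrArg Prod.fst hx))⟩
  have h0 : ∀ d u, Function.Exact (DA (m d) 0 u)
      ((freeHom (g d 0) (repY (N d)) (fun j => (e d j : (repY (N d)).X (g d 0 j)))).app u) :=
    fun d u => (F d).exact₀A u
  have h1 : ∀ d u, Function.Exact (DA (m d) 1 u) (DA (m d) 0 u) := fun d u =>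
    exact_DA₁ u ((F d).exact 0 u) ((F d).dual_exact₁ u)
  have h3 : ∀ d i u, Function.Exact (DA (m d) (i + 2 + 1) u) (DA (m d) (i + 2) u) := fun d i u =>
    exact_DA (i + 2) u ((F d).exact (i + 2) u) ((F d).dual_exact i u)
  have hcA : ∀ d i (y : ∀ j, (repY m₀).X (g d (i + 1) j)),
      (∀ j, (freeHom (g d (i + 1)) (repY m₀) y).app _ (liftMat (m d (i + 1)) j) = 0) →
      ∃ x : ∀ j, (repY m₀).X (g d i j),
        ∀ j, (freeHom (g d i) (repY m₀) x).app _ (liftMat (m d i) j) = y j := fun d i y hy => by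
    obtain ⟨x, hx⟩ := hc d i y fun j => (liftMat_repY _ _ _ j).symm.trans (hy j)
    exact ⟨x, fun j => (liftMat_repY _ _ _ j).trans (hx j)⟩
  have hHA : ∀ d (φ : Rep.Hom (repY (N (d + 1))) (repY m₀)) u x, φ.app u x = 0 :=
    fun d φ u x => hH d ⟨φ.app, fun h z => φ.nat ((h, 0) : HA _ _) z⟩ u x
  exact extVan_of_free_complexes (C := catA) (Z := fun d => repY (N d)) (M := repY m₀) (g := g)
    (m := fun d l => liftMat (m d l)) (z := fun d u => Facts.zMap (z d) u) hε h0 h1
    (fun d u x => ((F d).z_boundary u x).1) (fun d u w f x hx => (F d).z_nat u w f x hx)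
    (fun d u y => (F d).z_onto u y) (fun d u x hx => (F d).z_kernel u x hx) h3 hcA hHA

end Vale.Agent.P195.AExt
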